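import Mathlib.AlgebraicGeometry.ValuativeCriterion
import Vale.Agent.P270L.S6Deg

/-!
# P283M: centres of valuation rings, the order at a point of a complete curve
-/

open CategoryTheory AlgebraicGeometry TopologicalSpace Order
open Vale.Agent.P299.G Vale.Agent.P289 Vale.Agent.P270L.S
open Vale.Agent.P297 (Place PlaceOver IsFF)

namespace Vale.Agent.P283M.Crv

set_option linter.unusedSectionVars false

theorem exists_dom {A F : Type} [CommRing A] [IsLocalRing A] [Field F] (ψ : A →+* F) :
    ∃ W : ValuationSubring F, ∀ a, ψ a ∈ W ∧ (¬ IsUnit a → ψ a ∈ W.nonunits) := by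
  have hI : (IsLocalRing.maximalIdeal A).map ψ.rangeRestrict ≠ ⊤ := by
    intro h
    have h1 := Ideal.comap_map_of_surjective _ ψ.rangeRestrict_surjective
      (IsLocalRing.maximalIdeal A)
    rw [h, Ideal.comap_top, sup_eq_left.2 (IsLocalRing.le_maximalIdeal
      (Ideal.comap_ne_top _ bot_ne_top))] at h1
    exact (IsLocalRing.maximalIdeal.isMaximal _).ne_top h1.symm
  obtain ⟨V, hV1, hV2⟩ := Ideal.image_subset_nonunits_valuationSubring _ hI
  exact ⟨V, fun a => ⟨hV1 ⟨a, rfl⟩, fun ha =>
    hV2 ⟨_, Ideal.mem_map_of_mem _ ((IsLocalRing.mem_maximalIdeal _).2 ha), rfl⟩⟩⟩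

theorem exists_lift {X : Scheme.{0}} [IsIntegral X] {W : ValuationSubring X.functionField} {p : X}
    (hp : Dom W p) : ∃ l : Spec (CommRingCat.of W) ⟶ X,
      Spec.map (CommRingCat.ofHom (algebraMap W X.functionField)) ≫ l =
        X.fromSpecStalk (genericPoint X) ∧ l (IsLocalRing.closedPoint W) = p := by
  let φ : X.presheaf.stalk p →+* W := (toK p).codRestrict W.toSubring fun a => (hp a).1
  have : IsLocalHom φ := ⟨fun a ha => by
    by_contra h
    exact (ValuationSubring.coe_mem_nonunits_iff.1 ((hp a).2 h)) ha⟩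
  refine ⟨Spec.map (CommRingCat.ofHom φ) ≫ X.fromSpecStalk p, ?_, ?_⟩
  · rw [← Category.assoc, ← Spec.map_comp]
    exact Scheme.SpecMap_stalkSpecializes_fromSpecStalk
      ((genericPoint_spec X).specializes (Set.mem_univ p))
  · have h1 : Spec.map (CommRingCat.ofHom φ) (IsLocalRing.closedPoint W) =
        IsLocalRing.closedPoint (X.presheaf.stalk p) := IsLocalRing.comap_closedPoint φ
    exact (Scheme.Hom.comp_apply _ _ _).trans
      ((congrArg (X.fromSpecStalk p) h1).trans Scheme.fromSpecStalk_closedPoint)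

theorem dom_unique {X : Scheme.{0}} [IsIntegral X] [X.IsSeparated]
    {W : ValuationSubring X.functionField} {p q : X} (hp : Dom W p) (hq : Dom W q) : p = q := by
  obtain ⟨l, h1, rfl⟩ := exists_lift hp
  obtain ⟨l', h2, rfl⟩ := exists_lift hq
  let sq : ValuativeCommSq (Limits.terminal.from X) :=
    { R := W
      K := X.functionField
      i₁ := X.fromSpecStalk (genericPoint X)
      i₂ := Limits.terminal.from _
      commSq := ⟨Limits.terminal.hom_ext _ _⟩ }
  have h3 := (IsSeparated.valuativeCriterion (Limits.terminal.from X) sq).allEq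
    ⟨l, h1, Limits.terminal.hom_ext _ _⟩ ⟨l', h2, Limits.terminal.hom_ext _ _⟩
  rw [show l = l' from congrArg CommSq.LiftStruct.l h3]

theorem const_loc {X : Scheme.{0}} [IsIntegral X] {k : Type} [Field k]
    (s : X ⟶ Spec (CommRingCat.of k)) (p : X) (c : k) : constants s c ∈ loc p := by
  have : Nonempty (⊤ : X.Opens) := ⟨⟨p, trivial⟩⟩
  exact ⟨X.presheaf.germ ⊤ p trivial (H219.cst s ⊤ c),
    (H594.toK_germ ⊤ p trivial _).trans (H219.germ_cst s ⊤ c)⟩

theorem conductor {X : Scheme.{0}} [IsIntegral X] {k : Type} [Field k] [CharZero k]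
    (s : X ⟶ Spec (CommRingCat.of k)) [LocallyOfFiniteType s] (z : X) :
    ∃ c : X.presheaf.stalk z, c ≠ 0 ∧ ∀ f : X.functionField,
      IsIntegral (X.presheaf.stalk z) f → ∃ r, toK z r = toK z c * f := by
  obtain ⟨_, ⟨U, hU, rfl⟩, hi, -⟩ :=
    X.isBasis_affineOpens.exists_subset_of_mem_open (Set.mem_univ z) isOpen_univ
  have hne : Nonempty U := ⟨⟨z, hi⟩⟩
  let _ : Algebra k Γ(X, U) := (H219.cst s U).toAlgebra
  let _ : Algebra k X.functionField := (constants s).toAlgebra
  have : Algebra.FiniteType k Γ(X, U) := H219.cst_finiteType s hU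
  have : IsScalarTower k Γ(X, U) X.functionField :=
    IsScalarTower.of_algebraMap_eq fun c => (H219.germ_cst s U c).symm
  have := functionField_isFractionRing_of_isAffineOpen X U hU
  obtain ⟨c, hc0, hc⟩ := exists_conductor (k := k) (R := Γ(X, U)) (L := X.functionField)
  have hloc := hU.isLocalization_stalk ⟨z, hi⟩
  let _ := TopCat.Presheaf.algebra_section_stalk X.presheaf (U := U) ⟨z, hi⟩
  have : IsScalarTower Γ(X, U) (X.presheaf.stalk z) X.functionField :=
    functionField_isScalarTower X U ⟨z, hi⟩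
  have e : ∀ a : Γ(X, U), toK z (algebraMap _ _ a) = algebraMap _ X.functionField a := fun a =>
    (IsScalarTower.algebraMap_apply _ _ _ a).symm
  refine ⟨algebraMap _ _ c, fun h0 => hc0 (IsFractionRing.injective Γ(X, U) X.functionField ?_),
    fun f hf => ?_⟩
  · rw [← e, h0, map_zero, map_zero]
  obtain ⟨t, ht⟩ := IsIntegral.exists_multiple_integral_of_isLocalization
    (hU.primeIdealOf ⟨z, hi⟩).asIdeal.primeCompl f hf
  obtain ⟨r, hr⟩ := hc _ ht
  obtain ⟨b, hb⟩ := (IsLocalization.map_units (X.presheaf.stalk z) t).exists_right_inv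
  refine ⟨algebraMap _ _ r * b, ?_⟩
  rw [map_mul, e, e, hr, Submonoid.smul_def, Algebra.smul_def, ← e t, mul_assoc, mul_right_comm,
    ← map_mul, hb, map_one, one_mul]

theorem essFin {X : Scheme.{0}} [IsIntegral X] {k : Type} [Field k]
    (s : X ⟶ Spec (CommRingCat.of k)) [LocallyOfFiniteType s] :
    @Algebra.EssFiniteType k X.functionField _ _ (constants s).toAlgebra := by
  obtain ⟨_, ⟨U, hU, rfl⟩, hi, -⟩ :=
    X.isBasis_affineOpens.exists_subset_of_mem_open (Set.mem_univ (genericPoint X)) isOpen_univ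
  have hne : Nonempty U := ⟨⟨_, hi⟩⟩
  let _ : Algebra k Γ(X, U) := (H219.cst s U).toAlgebra
  let _ : Algebra k X.functionField := (constants s).toAlgebra
  have : Algebra.FiniteType k Γ(X, U) := H219.cst_finiteType s hU
  have : IsScalarTower k Γ(X, U) X.functionField :=
    IsScalarTower.of_algebraMap_eq fun c => (H219.germ_cst s U c).symm
  have := functionField_isFractionRing_of_isAffineOpen X U hU
  have := Algebra.EssFiniteType.of_isLocalization X.functionField (nonZeroDivisors Γ(X, U))
  exact Algebra.EssFiniteType.comp k Γ(X, U) X.functionField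

/-- a complete curve -/
structure Cpl (k : Type) [Field k] (X : Scheme.{0}) [IsIntegral X]
    [Algebra k X.functionField] : Prop where
  const : ∀ (p : X) c, algebraMap k X.functionField c ∈ loc p
  centre : ∀ P : PlaceOver k X.functionField, ∃ p : X, Dom P.1.ring p
  cond : ∀ z : X, ∃ c : X.presheaf.stalk z, c ≠ 0 ∧ ∀ f : X.functionField,
    IsIntegral (X.presheaf.stalk z) f → ∃ r, toK z r = toK z c * f

variable {X : Scheme.{0}} [IsIntegral X] [IsLocallyNoetherian X] [X.IsSeparated] {k : Type}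
  [Field k] [CharZero k] [IsAlgClosed k] [Algebra k X.functionField] [IsFF k X.functionField]

theorem krull_le (h : ∀ (p : X) c, algebraMap k X.functionField c ∈ loc p) (z : X) :
    Ring.KrullDimLE 1 (X.presheaf.stalk z) := by
  refine Ring.krullDimLE_one_iff_of_isPrime_bot.2 fun I hI0 hI => ?_
  obtain ⟨y, hy, rfl⟩ := exists_primeAt I
  obtain ⟨W, hW : Dom W y⟩ := exists_dom (toK y)
  have hk : ∀ c : k, algebraMap k X.functionField c ∈ W := fun c => hW.mem (h y c)
  obtain ⟨t, ht, ht0⟩ := Submodule.exists_mem_ne_zero_of_ne_bot hI0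
  obtain ⟨P, hP⟩ := P297.exists_place (k := k) W hk (by
    rintro rfl
    refine (mem_primeAt hy t).1 ht (un_toK.1 (hW.un (toK_mem _ _) ?_ trivial))
    rw [toK_toStalk]
    exact toK_ne_zero ht0)
  subst hP
  rw [Ideal.isMaximal_iff]
  refine ⟨fun h1 => hI.ne_top ((Ideal.eq_top_iff_one _).2 h1), fun J a hJ ha haJ => ?_⟩
  obtain ⟨c, hc⟩ := P297.exists_const P hk (hW.mem (loc_mono hy (toK_mem z a)))
  obtain ⟨b, hb⟩ := h z c
  have h1 : a - b ∈ primeAt hy := by
    rw [mem_primeAt, ← un_toK, toK_toStalk, map_sub, hb]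
    intro hu
    rcases hc with hc | hc
    · exact hu.1 (sub_eq_zero.2 hc)
    · have h2 := P.ord_nonneg_of_mem (hW.mem hu.2.2)
      rw [P.ord_inv] at h2
      exact absurd hc (not_lt.2 (neg_nonneg.1 h2))
  have h2 : IsUnit b := by
    have hc0 : c ≠ 0 := by
      rintro rfl
      rw [map_zero, map_eq_zero_iff _ (toK_injective z)] at hb
      rw [hb, sub_zero] at h1
      exact ha h1
    rw [← un_toK, hb]
    exact ⟨(map_ne_zero _).2 hc0, h z c, by rw [← map_inv₀]; exact h z _⟩
  have h3 : b ∈ J := by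
    have := J.sub_mem haJ (hJ h1)
    rwa [sub_sub_cancel] at this
  rw [Ideal.eq_top_of_isUnit_mem J h3 h2]
  trivial

variable (h : Cpl k X)

include h

theorem exists_centre (P : PlaceOver k X.functionField) :
    ∃ z : {z : X // coheight z = 1}, Dom P.1.ring z.1 := by
  obtain ⟨z, hz⟩ := h.centre P
  refine ⟨⟨z, ?_⟩, hz⟩
  have h3 : ringKrullDim (X.presheaf.stalk z) = coheight z := ringKrullDim_stalk_eq_coheight z
  have h4 := (Ring.krullDimLE_iff (n := 1)).1 (krull_le h.const z)
  rw [h3] at h4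
  have h5 : coheight z ≤ 1 := by exact_mod_cast h4
  refine le_antisymm h5 ?_
  rw [Order.one_le_iff_ne_zero]
  intro h0
  rw [h0] at h3
  have h6 : Ring.KrullDimLE 0 (X.presheaf.stalk z) := by
    rw [Ring.krullDimLE_iff, h3]
    rfl
  have h7 : IsField (X.presheaf.stalk z) := Ring.KrullDimLE.isField_of_isDomain
  apply P.1.ring_ne_top
  rw [eq_top_iff]
  intro f _
  obtain ⟨a, b, hb, rfl⟩ := IsFractionRing.div_surjective (A := X.presheaf.stalk z) f
  obtain ⟨c, hc⟩ := h7.mul_inv_cancel (nonZeroDivisors.ne_zero hb)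
  have h8 := un_toK.2 (IsUnit.of_mul_eq_one c hc)
  rw [div_eq_mul_inv]
  exact hz.mem (mul_mem (toK_mem z a) h8.2.2)

/-- The centre of a place. -/
noncomputable def ctr (P : PlaceOver k X.functionField) : {z : X // coheight z = 1} :=
  (exists_centre h P).choose

theorem ctr_dom (P : PlaceOver k X.functionField) : Dom P.1.ring (ctr h P).1 :=
  (exists_centre h P).choose_spec

theorem ctr_eq_iff (P : PlaceOver k X.functionField) (z : {z : X // coheight z = 1}) :
    ctr h P = z ↔ ∀ a : X.presheaf.stalk z.1, toK z.1 a ∈ P.1.ring := by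
  constructor
  · rintro rfl a
    exact (ctr_dom h P a).1
  · intro hz
    have := krull_le h.const z.1
    refine Subtype.ext (dom_unique (ctr_dom h P) fun a => ⟨hz a, fun ha => ?_⟩)
    rw [ValuationSubring.mem_nonunits_iff_or]
    by_cases h0 : a = 0
    · left
      rw [h0, map_zero]
    · right
      intro hinv
      have h1 := dom_of_le P.1 hz h0 ha
      have h2 := P.1.ord_nonneg_of_mem hinv
      rw [P.1.ord_inv] at h2
      exact absurd h1 (by change ¬ 0 < P.1.ord (toK z.1 a); omega)

theorem mapDomain_ctr {u : X.functionField} (hu : u ≠ 0) (z : {z : X // coheight z = 1}) :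
    Finsupp.mapDomain (ctr h) (P297.div k u) z = Scheme.ord u z.1 := by
  classical
  have hkr := krull_le h.const z.1
  obtain ⟨t, ht0, ht⟩ : ∃ t : X.presheaf.stalk z.1, t ≠ 0 ∧ ¬ IsUnit t := by
    by_contra hcon
    push Not at hcon
    have h1 : IsField (X.presheaf.stalk z.1) :=
      ⟨exists_pair_ne _, mul_comm, fun {a} ha => (hcon a ha).exists_right_inv⟩
    have h2 := ringKrullDim_eq_zero_of_isField h1
    rw [ringKrullDim_stalk_eq_coheight, z.2] at h2
    exact one_ne_zero (α := WithBot ℕ∞) h2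
  have hfin : {P : PlaceOver k X.functionField | ctr h P = z}.Finite :=
    (P297.finite_zeros (k := k) (toK z.1 t)).subset fun P hP =>
      dom_of_le P.1 ((ctr_eq_iff h P z).1 hP) ht0 ht
  obtain ⟨c, hc0, hc⟩ := h.cond z.1
  have h1 := len_formula (k := k) (A := X.presheaf.stalk z.1) (h.const z.1) hfin.toFinset
    (fun P => by rw [hfin.mem_toFinset]; exact ctr_eq_iff h P z) hc0 hc hu
  have h2 : Scheme.ord u z.1 = WithZero.log (Ring.ordFrac (X.presheaf.stalk z.1) u) := by
    rw [Scheme.ord_eq_iff z.2 hu]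
    exact (WithZero.exp_log ((map_ne_zero _).2 hu)).symm
  rw [h2, h1, P297.mapDomain_apply_finsum]
  have h3 : ∑ᶠ P : {P // ctr h P = z}, P297.div k u P.1 =
      ∑ᶠ (P : PlaceOver k X.functionField) (_ : P ∈ {P | ctr h P = z}), P.1.ord u :=
    finsum_subtype_eq_finsum_cond (f := fun P : PlaceOver k X.functionField => P.1.ord u) _
  rw [h3, finsum_mem_eq_finite_toFinset_sum _ hfin]

variable {L : Type} [Field L] [Algebra k L] [Algebra X.functionField L]
  [IsScalarTower k X.functionField L] [IsFF k L] [FiniteDimensional X.functionField L]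

theorem mapDomain_ctr_rp {u : X.functionField} (hu : u ≠ 0) (z : {z : X // coheight z = 1}) :
    Finsupp.mapDomain (ctr h ∘ rp X.functionField) (P297.div k (algebraMap _ L u)) z =
      Module.finrank X.functionField L * Scheme.ord u z.1 := by
  rw [Finsupp.mapDomain_comp, mapDomain_rp hu, Finsupp.mapDomain_smul, Finsupp.smul_apply,
    mapDomain_ctr h hu, nsmul_eq_mul]

/-- **the sum of the local orders is a sum over the places** -/
theorem sum_ord {w : X → X.functionField} (hw : ∀ z, w z ≠ 0) {Φ : PlaceOver k L → ℤ}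
    (hf : (Function.support Φ).Finite)
    (e : ∀ Q, Φ Q = Q.1.ord (algebraMap _ L (w (ctr h (rp X.functionField Q)).1))) :
    ∑ᶠ Q, Φ Q = Module.finrank X.functionField L *
      ∑ᶠ z : {z : X // coheight z = 1}, Scheme.ord (w z) z.1 := by
  let c : PlaceOver k L → {z : X // coheight z = 1} := ctr h ∘ rp X.functionField
  let Ψ : PlaceOver k L →₀ ℤ := Finsupp.ofSupportFinite _ hf
  have h2 : ∀ z, Finsupp.mapDomain c Ψ z =
      Module.finrank X.functionField L * Scheme.ord (w z) z.1 := by
    intro z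
    rw [← mapDomain_ctr_rp (L := L) h (hw z) z, P297.mapDomain_apply_finsum,
      P297.mapDomain_apply_finsum]
    refine finsum_congr fun Q => ?_
    change Φ Q.1 = Q.1.1.ord (algebraMap _ L (w z))
    rw [e, show ctr h (rp X.functionField Q.1) = z from Q.2]
  rw [mul_finsum, ← finsum_congr h2, ← P297.deg_eq_finsum, P297.deg_mapDomain,
    P297.deg_eq_finsum]
  rfl

end Vale.Agent.P283M.Crv
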