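import Vale.Agent.P287D.Api.Int
import Vale.Agent.P287D.Cv.Deg

/-!
# P283M: places with values in a field, restriction of linear systems along chains of places
-/

set_option linter.unusedSectionVars false

open Set
open Vale.Agent.P287D Vale.Agent.P287D.Bm

noncomputable section

namespace Vale.Agent.P283M.Crv

/-- a place of `K` with values in `F` -/
structure Sp (K F : Type) [Field K] [Algebra ℂ K] [Field F] [Algebra ℂ F] where
  /-- the valuation ring -/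
  O : ValuationSubring K
  /-- the values -/
  r : K → F
  add : ∀ a ∈ O, ∀ b ∈ O, r (a + b) = r a + r b
  mul : ∀ a ∈ O, ∀ b ∈ O, r (a * b) = r a * r b
  con : ∀ c, algebraMap ℂ K c ∈ O
  cst : ∀ c, r (algebraMap ℂ K c) = algebraMap ℂ F c
  ker : ∀ a ∈ O, r a ≠ 0 → a⁻¹ ∈ O

variable {K F : Type} [Field K] [Algebra ℂ K] [Field F] [Algebra ℂ F]

/-- `g` generates the system `s` along `O` -/
def Mx (O : ValuationSubring K) (s : Finset K) (g : K) : Prop :=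
  g ∈ s ∧ g ≠ 0 ∧ ∀ f ∈ s, f / g ∈ O

theorem exists_mx (O : ValuationSubring K) {s : Finset K} (h : Nz s) : ∃ g, Mx O s g := by
  obtain ⟨f, hf, f0⟩ := h
  obtain ⟨g, hg, k⟩ := Finset.exists_max_image s O.valuation ⟨f, hf⟩
  refine ⟨g, hg, fun e => ?_, fun a ha => ?_⟩
  · have := k f hf
    rw [e, map_zero, le_zero_iff, Valuation.zero_iff] at this
    exact f0 this
  · rw [← O.valuation_le_one_iff, map_div₀]
    exact div_le_one_of_le₀ (k a ha) zero_le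

theorem Mx.mono {O O' : ValuationSubring K} {s : Finset K} {g : K} (h : Mx O s g)
    (e : ∀ a ∈ O, a ∈ O') : Mx O' s g := ⟨h.1, h.2.1, fun f hf => e _ (h.2.2 f hf)⟩

namespace Sp

variable (σ : Sp K F) {a b g g' : K} {s : Finset K}

theorem one : σ.r 1 = 1 := by simpa using σ.cst 1

theorem zero : σ.r 0 = 0 := by simpa using σ.cst 0

theorem mul_inv (h : a ∈ σ.O) (h' : a⁻¹ ∈ σ.O) (h0 : a ≠ 0) : σ.r a * σ.r a⁻¹ = 1 := by
  rw [← σ.mul _ h _ h', mul_inv_cancel₀ h0, σ.one]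

theorem ne (h : a ∈ σ.O) (h' : a⁻¹ ∈ σ.O) (h0 : a ≠ 0) : σ.r a ≠ 0 :=
  left_ne_zero_of_mul_eq_one (σ.mul_inv h h' h0)

theorem inv (h : a ∈ σ.O) (h' : a⁻¹ ∈ σ.O) : σ.r a⁻¹ = (σ.r a)⁻¹ := by
  by_cases h0 : a = 0
  · rw [h0, inv_zero, σ.zero, inv_zero]
  · exact eq_inv_of_mul_eq_one_right (σ.mul_inv h h' h0)

theorem neg (h : a ∈ σ.O) : σ.r (-a) = -σ.r a := by
  rw [eq_neg_iff_add_eq_zero, ← σ.add _ (neg_mem h) _ h, neg_add_cancel, σ.zero]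

variable (K) in
/-- the trivial place -/
def id : Sp K K where
  O := ⊤
  r a := a
  add _ _ _ _ := rfl
  mul _ _ _ _ := rfl
  con _ := trivial
  cst _ := rfl
  ker _ _ _ := trivial

/-- the preimage of a valuation ring -/
def cO (W : ValuationSubring F) : ValuationSubring K where
  carrier := {a | a ∈ σ.O ∧ σ.r a ∈ W}
  mul_mem' {a b} h k := ⟨mul_mem h.1 k.1, by rw [σ.mul _ h.1 _ k.1]; exact mul_mem h.2 k.2⟩
  one_mem' := ⟨one_mem _, by rw [σ.one]; exact one_mem _⟩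
  add_mem' {a b} h k := ⟨add_mem h.1 k.1, by rw [σ.add _ h.1 _ k.1]; exact add_mem h.2 k.2⟩
  zero_mem' := ⟨zero_mem _, by rw [σ.zero]; exact zero_mem _⟩
  neg_mem' {a} h := ⟨neg_mem h.1, by rw [σ.neg h.1]; exact neg_mem h.2⟩
  mem_or_inv_mem' a := by
    have key : ∀ a ∈ σ.O, a⁻¹ ∉ σ.O → σ.r a ∈ W := fun a h k => by
      rw [of_not_not (mt (σ.ker a h) k)]
      exact zero_mem _
    by_cases h : a ∈ σ.O
    · by_cases k : a⁻¹ ∈ σ.O
      · exact (W.mem_or_inv_mem (σ.r a)).imp (fun e => ⟨h, e⟩) fun e => ⟨k, σ.inv h k ▸ e⟩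
      · exact Or.inl ⟨h, key a h k⟩
    · have k := (σ.O.mem_or_inv_mem a).resolve_left h
      exact Or.inr ⟨k, key _ k (by rwa [inv_inv])⟩

theorem mem_cO {W : ValuationSubring F} : a ∈ σ.cO W ↔ a ∈ σ.O ∧ σ.r a ∈ W := Iff.rfl

/-- the composition with a divisorial place -/
def comp (P : Pl F) : Sp K P.κ where
  O := σ.cO P.ring
  r a := P.rd (σ.r a)
  add a h b k := by rw [σ.add _ h.1 _ k.1, rd_add P h.2 k.2]
  mul a h b k := by rw [σ.mul _ h.1 _ k.1, rd_mul P h.2 k.2]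
  con c := ⟨σ.con c, by rw [σ.cst]; exact P.con c⟩
  cst c := by rw [σ.cst, rd_const]
  ker a h k := by
    rw [Ne, rd_zero_iff P h.2, not_or, not_lt] at k
    have h1 := σ.ker a h.1 k.1
    refine ⟨h1, ?_⟩
    rw [σ.inv h.1 h1, ← P297Z.Pl.ord_nonneg_iff _ (inv_ne_zero k.1), P297Z.Pl.ord_inv]
    omega

open Classical in
/-- the restricted system -/
def sy (s : Finset K) (g : K) : Finset F := s.image fun f => σ.r (f / g)

theorem mem_sy {x : F} : x ∈ σ.sy s g ↔ ∃ f ∈ s, σ.r (f / g) = x := by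
  simp [sy]

theorem one_mem_sy (h : Mx σ.O s g) : (1 : F) ∈ σ.sy s g :=
  σ.mem_sy.2 ⟨g, h.1, by rw [div_self h.2.1, σ.one]⟩

theorem nz_sy (h : Mx σ.O s g) : Nz (σ.sy s g) := ⟨1, σ.one_mem_sy h, one_ne_zero⟩

theorem r_div (h : Mx σ.O s g) (h' : Mx σ.O s g') {f : K} (hf : f ∈ s) :
    σ.r (f / g) = σ.r (f / g') * σ.r (g' / g) := by
  rw [← σ.mul _ (h'.2.2 f hf) _ (h.2.2 _ h'.1), div_mul_div_cancel₀ h'.2.1]

theorem r_ne (h : Mx σ.O s g) (h' : Mx σ.O s g') : σ.r (g' / g) ≠ 0 :=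
  σ.ne (h.2.2 _ h'.1) (by rw [inv_div]; exact h'.2.2 _ h.1) (div_ne_zero h'.2.1 h.2.1)

theorem mx_sy (h : Mx σ.O s g) (h' : Mx σ.O s g') :
    mx (σ.sy s g) = mx (σ.sy s g') - dv (σ.r (g' / g)) := by
  classical
  rw [← mx_image_mul (σ.nz_sy h') (σ.r_ne h h')]
  congr 1
  ext x
  rw [Finset.mem_image, mem_sy]
  constructor
  · rintro ⟨f, hf, rfl⟩
    exact ⟨_, σ.mem_sy.2 ⟨f, hf, rfl⟩, (σ.r_div h h' hf).symm⟩
  · rintro ⟨_, hy, rfl⟩
    obtain ⟨f, hf, rfl⟩ := σ.mem_sy.1 hy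
    exact ⟨f, hf, σ.r_div h h' hf⟩

theorem mz_sy (P : Pl F) (h : Mx (σ.cO P.ring) s g) : P.mz (σ.sy s g) = 0 := by
  have h1 : Mx σ.O s g := h.mono fun _ k => k.1
  rw [P.mz_eq (σ.one_mem_sy h1) one_ne_zero fun x hx x0 => ?_, P297Z.Pl.ord_one, neg_zero]
  obtain ⟨f, hf, rfl⟩ := σ.mem_sy.1 hx
  rw [P297Z.Pl.ord_one]
  exact (P297Z.Pl.ord_nonneg_iff _ x0).2 (h.2.2 f hf).2

/-- the value of the restricted system at a place -/
theorem mx_sy_at (P : Pl F) (h : Mx σ.O s g) (h' : Mx (σ.cO P.ring) s g') :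
    mx (σ.sy s g) P = -P.ord (σ.r (g' / g)) := by
  rw [σ.mx_sy h (h'.mono fun _ k => k.1), Pi.sub_apply, mx_apply, σ.mz_sy P h', dv_apply]
  simp

theorem rs_sy (P : Pl F) (h : Mx (σ.cO P.ring) s g) : P.rs (σ.sy s g) = (σ.comp P).sy s g := by
  ext x
  rw [Pl.rs, σ.mz_sy P h, mem_sy]
  simp only [Finset.mem_image, zpow_zero, mul_one, mem_sy]
  exact ⟨fun ⟨_, ⟨f, hf, e⟩, k⟩ => ⟨f, hf, by rw [← k, ← e]; rfl⟩,
    fun ⟨f, hf, e⟩ => ⟨_, ⟨f, hf, rfl⟩, e⟩⟩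

end Sp

theorem res_prn {n : ℕ} (hF : FF F (n + 1)) (P : Pl F) {β : BD F} (h : β ∈ Prn F) :
    res P β ∈ Prn P.κ := by
  refine Prn.ind (p := fun β => res P β ∈ Prn P.κ) h (fun f f0 => ?_)
    (fun a b h k h' k' => ?_) fun c a h h' => ?_
  · rw [res'.pri n F hF P f f0]
    exact dv_mem_Prn _
  · rw [res'.add n F hF P _ (Prn_le_Car h) _ (Prn_le_Car k)]
    exact add_mem h' k'
  · rw [res'.smul n F hF P c _ (Prn_le_Car h)]
    exact Submodule.smul_mem _ _ h'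

theorem res_sub {n : ℕ} (hF : FF F (n + 1)) (P : Pl F) {β γ : BD F} (h : β ∈ Car F)
    (k : γ ∈ Car F) : res P (β - γ) = res P β - res P γ := by
  rw [eq_sub_iff_add_eq, ← res'.add n F hF P _ (sub_mem h k) _ k, sub_add_cancel]

theorem res_sy {n : ℕ} (hF : FF F (n + 1)) (σ : Sp K F) (P : Pl F) {s : Finset K} {g g' : K}
    (h : Mx σ.O s g) (h' : Mx (σ.comp P).O s g') :
    res P (mx (σ.sy s g)) - mx ((σ.comp P).sy s g') ∈ Prn P.κ := by
  rw [σ.mx_sy h (h'.mono fun _ k => k.1), res_sub hF P (mx_mem_Car _) (dv_mem_Car _),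
    res'.sys n F hF P, σ.rs_sy P h', sub_sub_cancel_left]
  exact neg_mem (res_prn hF P (dv_mem_Prn _))

/-- `G` and `b` are the restrictions of `mx u` and of `c • (mx s - mx s')` -/
structure Inv (σ : Sp K F) (u s s' : Finset K) (c : ℝ) (G b : BD F) : Prop where
  mem : Mx σ.O u 1
  eq : G = mx (σ.sy u 1)
  prn : ∃ g g', Mx σ.O s g ∧ Mx σ.O s' g' ∧ b - c • (mx (σ.sy s g) - mx (σ.sy s' g')) ∈ Prn F

variable {σ : Sp K F} {u s s' : Finset K} {c : ℝ} {G b : BD F}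

theorem sy_id (s : Finset K) {g : K} (h : Mx ⊤ s g) : mx ((Sp.id K).sy s g) = mx s + dv g := by
  classical
  rw [← sub_neg_eq_add, ← dv_inv, ← mx_image_mul ⟨g, h.1, h.2.1⟩ (inv_ne_zero h.2.1)]
  congr 1
  ext x
  rw [Sp.mem_sy, Finset.mem_image]
  simp only [← div_eq_mul_inv]
  rfl

theorem inv_id (hu : (1 : K) ∈ u) (h : Nz s) (h' : Nz s') (c : ℝ) :
    Inv (Sp.id K) u s s' c (mx u) (c • (mx s - mx s')) := by
  obtain ⟨g, hg⟩ := exists_mx ⊤ h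
  obtain ⟨g', hg'⟩ := exists_mx ⊤ h'
  have h1 : Mx ⊤ u 1 := ⟨hu, one_ne_zero, fun _ _ => trivial⟩
  refine ⟨h1, by rw [sy_id u h1, dv_one, add_zero], g, g', hg, hg', ?_⟩
  rw [sy_id s hg, sy_id s' hg', ← smul_sub]
  refine Submodule.smul_mem _ _ ?_
  rw [show mx s - mx s' - (mx s + dv g - (mx s' + dv g')) = dv g' - dv g by abel]
  exact sub_mem (dv_mem_Prn _) (dv_mem_Prn _)

theorem Inv.car (h : Inv σ u s s' c G b) : b ∈ Car F := by
  obtain ⟨g, g', -, -, k⟩ := h.prn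
  simpa using add_mem (Prn_le_Car k)
    (Submodule.smul_mem _ c (sub_mem (mx_mem_Car (σ.sy s g)) (mx_mem_Car (σ.sy s' g'))))

theorem Inv.ring (h : Inv σ u s s' c G b) {P : Pl F} (hP : G P = 0) : Mx (σ.cO P.ring) u 1 := by
  refine ⟨h.mem.1, one_ne_zero, fun f hf => ⟨h.mem.2.2 f hf, ?_⟩⟩
  by_cases h0 : σ.r (f / 1) = 0
  · rw [h0]; exact zero_mem _
  have h1 := P.le_mz (σ.mem_sy.2 ⟨f, hf, rfl⟩) h0
  rw [h.eq, mx_apply, Int.cast_eq_zero] at hP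
  rw [← P297Z.Pl.ord_nonneg_iff _ h0]
  omega

theorem Inv.step {n : ℕ} (hF : FF F (n + 1)) (h : Inv σ u s s' c G b) {P : Pl F} (hP : G P = 0) :
    Inv (σ.comp P) u s s' c (res P G) (res P b) := by
  obtain ⟨g, g', hg, hg', k⟩ := h.prn
  obtain ⟨a, ha⟩ := exists_mx (σ.comp P).O ⟨g, hg.1, hg.2.1⟩
  obtain ⟨a', ha'⟩ := exists_mx (σ.comp P).O ⟨g', hg'.1, hg'.2.1⟩
  refine ⟨h.ring hP, ?_, a, a', ha, ha', ?_⟩
  · rw [h.eq, res'.sys n F hF P, σ.rs_sy P (h.ring hP)]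
  · have h1 := res_prn hF P k
    have h2 := sub_mem (mx_mem_Car (σ.sy s g)) (mx_mem_Car (σ.sy s' g'))
    rw [res_sub hF P h.car (Submodule.smul_mem _ _ h2), res'.smul n F hF P c _ h2,
      res_sub hF P (mx_mem_Car _) (mx_mem_Car _)] at h1
    have h3 := add_mem h1 (Submodule.smul_mem _ c
      (sub_mem (res_sy hF σ P hg ha) (res_sy hF σ P hg' ha')))
    refine (congrArg (· ∈ Prn P.κ) ?_).mp h3
    simp only [smul_sub]
    abel

/-- the degrees on the curves along which `u` is constant -/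
def Dg (u s s' : Finset K) : Prop := ∀ (F : Type) [Field F] [Algebra ℂ F], FF F 1 →
  ∀ σ : Sp K F, (∀ a ∈ u, a ∈ σ.O ∧ ∀ P : Pl F, σ.r a ∈ P.ring) → ∀ g g', Mx σ.O s g →
    Mx σ.O s' g' → I1 (mx (σ.sy s' g')) ≤ I1 (mx (σ.sy s g))

theorem Inv.nef (hd : Dg u s s') (hc : 0 ≤ c) : ∀ (n : ℕ) (F : Type) [Field F] [Algebra ℂ F]
    (σ : Sp K F) (G b : BD F), FF F (n + 1) → Inv σ u s s' c G b → G = 0 → Nef b
  | 0, F, _, _, σ, G, b, hF, h, h0 => by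
    obtain ⟨g, g', hg, hg', k⟩ := h.prn
    have h1 := hd F hF σ (fun a ha => ⟨by simpa using h.mem.2.2 a ha, fun P => by
      simpa using ((h.ring (P := P) (by rw [h0]; rfl)).2.2 a ha).2⟩) g g' hg hg'
    have h2 := Cv.I1_prn hF k
    have h3 := sub_mem (mx_mem_Car (σ.sy s g)) (mx_mem_Car (σ.sy s' g'))
    rw [Cv.I1_sub hF h.car (Submodule.smul_mem _ _ h3), Cv.I1_smul,
      Cv.I1_sub hF (mx_mem_Car _) (mx_mem_Car _), sub_eq_zero] at h2
    refine (Api.int.nef1 F hF b ((Api.mod.isb 0 F hF).1 b h.car)).2.1.2 ?_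
    rw [h2]
    exact mul_nonneg hc (sub_nonneg.2 h1)
  | n + 1, F, _, _, σ, G, b, hF, h, h0 => by
    refine Api.int.nef n F hF b h.car fun P => Inv.nef hd hc n P.κ (σ.comp P) (res P G) _
      (Api.ffs.rsd _ F hF P) (h.step hF (by rw [h0]; rfl)) ?_
    rw [h0, ← zero_smul ℝ (0 : BD F), res'.smul _ F hF P _ _ (zero_mem _), zero_smul]

end Vale.Agent.P283M.Crv
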